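import Vale.Agent.P266.Alg.Series

/-!
The square zero extension of a chart along a cocycle, and the transport of a cocycle to another
chart.
-/

noncomputable section

open Finset

namespace Vale.Agent.P266.Alg.Cocycle

variable {R : Type} [CommRing R] [Algebra ℂ R]

/-- A symmetric normalised cocycle which is linear along `φ`. -/
structure Coc (φ : P →ₐ[ℂ] R) where
  B : R → R → R
  add_left : ∀ x y z, B (x + y) z = B x z + B y z
  symm : ∀ x y, B x y = B y x
  one_left : ∀ y, B 1 y = 0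
  lin : ∀ f x y, B (φ f * x) y = φ f * B x y
  assoc : ∀ x y z, x * B y z + B x (y * z) = z * B x y + B (x * y) z

variable {φ : P →ₐ[ℂ] R} (C : Coc φ)

lemma Coc.add_right (x y z : R) : C.B x (y + z) = C.B x y + C.B x z := by
  rw [C.symm, C.add_left, C.symm y, C.symm z]

lemma Coc.phi_left (f : P) (y : R) : C.B (φ f) y = 0 := by
  have := C.lin f 1 y
  rwa [mul_one, C.one_left, mul_zero] at this

lemma Coc.zero_left (y : R) : C.B 0 y = 0 := by
  simpa using C.phi_left 0 y

lemma Coc.sum_left {ι : Type} (s : Finset ι) (f : ι → R) (y : R) :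
    C.B (∑ i ∈ s, f i) y = ∑ i ∈ s, C.B (f i) y := by
  classical
  induction s using Finset.induction_on with
  | empty => simp [C.zero_left]
  | insert a s ha ih => rw [sum_insert ha, sum_insert ha, C.add_left, ih]

lemma Coc.comb_left {n : ℕ} (e : Fin n → R) (p : Fin n → P) (y : R) :
    C.B (comb φ e p) y = ∑ i, φ (p i) * C.B (e i) y := by
  rw [comb, C.sum_left]
  exact sum_congr rfl fun i _ => C.lin _ _ _

/-- The extension of `R` by `R` along a cocycle. -/
@[ext]
structure Ext (C : Coc φ) where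
  fst : R
  snd : R

namespace Ext

variable {C}

instance : Add (Ext C) := ⟨fun x y => ⟨x.fst + y.fst, x.snd + y.snd⟩⟩
instance : Zero (Ext C) := ⟨⟨0, 0⟩⟩
instance : One (Ext C) := ⟨⟨1, 0⟩⟩
instance : Neg (Ext C) := ⟨fun x => ⟨-x.fst, -x.snd⟩⟩
instance : Mul (Ext C) :=
  ⟨fun x y => ⟨x.fst * y.fst, x.fst * y.snd + y.fst * x.snd + C.B x.fst y.fst⟩⟩

@[simp] lemma add_fst (x y : Ext C) : (x + y).fst = x.fst + y.fst := rfl
@[simp] lemma add_snd (x y : Ext C) : (x + y).snd = x.snd + y.snd := rfl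
@[simp] lemma zero_fst : (0 : Ext C).fst = 0 := rfl
@[simp] lemma zero_snd : (0 : Ext C).snd = 0 := rfl
@[simp] lemma one_fst : (1 : Ext C).fst = 1 := rfl
@[simp] lemma one_snd : (1 : Ext C).snd = 0 := rfl
@[simp] lemma neg_fst (x : Ext C) : (-x).fst = -x.fst := rfl
@[simp] lemma neg_snd (x : Ext C) : (-x).snd = -x.snd := rfl
@[simp] lemma mul_fst (x y : Ext C) : (x * y).fst = x.fst * y.fst := rfl
lemma mul_snd (x y : Ext C) :
    (x * y).snd = x.fst * y.snd + y.fst * x.snd + C.B x.fst y.fst := rfl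

instance : CommRing (Ext C) :=
  CommRing.ofMinimalAxioms
    (fun a b c => Ext.ext (add_assoc _ _ _) (add_assoc _ _ _))
    (fun a => Ext.ext (zero_add _) (zero_add _))
    (fun a => Ext.ext (neg_add_cancel _) (neg_add_cancel _))
    (fun a b c => Ext.ext (mul_assoc _ _ _) (by
      simp only [mul_snd, mul_fst]
      linear_combination -(C.assoc a.fst b.fst c.fst)))
    (fun a b => Ext.ext (mul_comm _ _) (by
      simp only [mul_snd, C.symm b.fst a.fst]
      ring))
    (fun a => Ext.ext (one_mul _) (by simp [mul_snd, C.one_left]))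
    (fun a b c => Ext.ext (mul_add _ _ _) (by
      simp only [mul_snd, add_fst, add_snd, C.add_right]
      ring))

/-- The first component. -/
def fstRing : Ext C →+* R where
  toFun := Ext.fst
  map_one' := rfl
  map_mul' _ _ := rfl
  map_zero' := rfl
  map_add' _ _ := rfl

/-- The section over the scalars of the chart. -/
def inlP : P →+* Ext C where
  toFun f := ⟨φ f, 0⟩
  map_one' := Ext.ext (map_one φ) rfl
  map_mul' f g := Ext.ext (map_mul φ f g) (by simp [mul_snd, C.phi_left])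
  map_zero' := Ext.ext (map_zero φ) rfl
  map_add' f g := Ext.ext (map_add φ f g) (by simp)

instance : Algebra ℂ (Ext C) := (inlP.comp (algebraMap ℂ P)).toAlgebra

lemma algebraMap_def (c : ℂ) :
    algebraMap ℂ (Ext C) c = ⟨φ (algebraMap ℂ P c), 0⟩ := rfl

/-- The first component as an algebra map. -/
def fstHom : Ext C →ₐ[ℂ] R :=
  { fstRing with commutes' := fun c => φ.commutes c }

@[simp] lemma fstHom_apply (x : Ext C) : fstHom x = x.fst := rfl

/-- The section over the scalars of the chart, as an algebra map. -/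
def inlA : P →ₐ[ℂ] Ext C :=
  { inlP with commutes' := fun _ => rfl }

lemma inlA_mul (f : P) (x : Ext C) : inlA f * x = ⟨φ f * x.fst, φ f * x.snd⟩ :=
  Ext.ext rfl (by
    show φ f * x.snd + x.fst * 0 + C.B (φ f) x.fst = φ f * x.snd
    rw [C.phi_left]; ring)

@[simp] lemma sum_fst {ι : Type} (s : Finset ι) (f : ι → Ext C) :
    (∑ i ∈ s, f i).fst = ∑ i ∈ s, (f i).fst := map_sum fstRing f s

@[simp] lemma sum_snd {ι : Type} (s : Finset ι) (f : ι → Ext C) :
    (∑ i ∈ s, f i).snd = ∑ i ∈ s, (f i).snd :=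
  map_sum (AddMonoidHom.mk' Ext.snd fun _ _ => rfl : Ext C →+ R) f s

lemma inr_mul (u : R) (y : Ext C) : (⟨0, u⟩ : Ext C) * y = ⟨0, y.fst * u⟩ :=
  Ext.ext (zero_mul _) (by simp [mul_snd, C.zero_left])

lemma inr_mul_inr (u v : R) : (⟨0, u⟩ : Ext C) * ⟨0, v⟩ = 0 := by
  rw [inr_mul]
  exact Ext.ext rfl (zero_mul u)

end Ext

/-- Adic completeness for an ideal between two of the same radical. -/
lemma isAdicComplete_between {T : Type} [CommRing T] {I J : Ideal T} [IsAdicComplete J T]
    (h : J ≤ I) {n : ℕ} (hn : 1 ≤ n) (hI : I ^ n ≤ J) : IsAdicComplete I T where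
  haus' x hx := IsHausdorff.haus' (I := J) x fun k => by
    have := hx (n * k)
    rw [SModEq.zero, smul_eq_mul, Ideal.mul_top] at this ⊢
    rw [pow_mul] at this
    exact Ideal.pow_right_mono hI k this
  prec' f hf := by
    have hg : ∀ {a b : ℕ}, a ≤ b → f (n * a) ≡ f (n * b) [SMOD (J ^ a • ⊤ : Submodule T T)] := by
      intro a b hab
      have := hf (Nat.mul_le_mul_left n hab)
      rw [SModEq.sub_mem, smul_eq_mul, Ideal.mul_top] at this ⊢
      rw [pow_mul] at this
      exact Ideal.pow_right_mono hI a this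
    obtain ⟨L, hL⟩ := IsPrecomplete.prec' (I := J) (fun k => f (n * k)) hg
    refine ⟨L, fun k => ?_⟩
    have h1 := hf (Nat.le_mul_of_pos_left k hn : k ≤ n * k)
    have h2 := hL k
    rw [SModEq.sub_mem, smul_eq_mul, Ideal.mul_top] at h1 h2 ⊢
    rw [show f k - L = (f k - f (n * k)) + (f (n * k) - L) by ring]
    exact add_mem h1 (Ideal.pow_right_mono h k h2)

section Transport

variable [IsLocalRing R] {N M : ℕ} (χ : Chart R N) (χ' : Chart R M) (C : Coc χ.phi)

lemma comb_ext (p : Fin ((N + 1) + (N + 1)) → P) :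
    comb (Ext.inlA (C := C)) (Fin.append (fun i => (⟨χ.e i, 0⟩ : Ext C))
        fun i => (⟨0, χ.e i⟩ : Ext C)) p =
      ⟨comb χ.phi χ.e fun i => p (Fin.castAdd (N + 1) i),
        comb χ.phi χ.e fun i => p (Fin.natAdd (N + 1) i)⟩ := by
  rw [comb, Fin.sum_univ_add]
  refine Ext.ext ?_ ?_ <;>
    simp only [comb, Fin.append_left, Fin.append_right, Ext.inlA_mul, Ext.add_fst, Ext.add_snd,
      Ext.sum_fst, Ext.sum_snd, mul_zero, sum_const_zero, add_zero, zero_add]

lemma bijective_comb_ext :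
    Function.Bijective (comb (Ext.inlA (C := C)) (Fin.append (fun i => (⟨χ.e i, 0⟩ : Ext C))
      fun i => (⟨0, χ.e i⟩ : Ext C))) := by
  constructor
  · intro p q h
    rw [comb_ext, comb_ext] at h
    obtain ⟨h1, h2⟩ := Ext.mk.inj h
    funext k
    refine Fin.addCases (fun i => ?_) (fun i => ?_) k
    · exact congrFun (χ.bij.1 h1) i
    · exact congrFun (χ.bij.1 h2) i
  · rintro ⟨x, u⟩
    obtain ⟨p, rfl⟩ := χ.bij.2 x
    obtain ⟨q, rfl⟩ := χ.bij.2 u
    refine ⟨Fin.append p q, ?_⟩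
    rw [comb_ext]
    simp only [Fin.append_left, Fin.append_right]

/-- The elements over the maximal ideal. -/
def mExt : Ideal (Ext C) := (IsLocalRing.maximalIdeal R).comap Ext.fstHom

lemma exists_pow_mExt_le : ∃ n, 1 ≤ n ∧ mExt χ C ^ n ≤ mP.map (Ext.inlA (C := C)) := by
  obtain ⟨K, hK⟩ := χ.primary
  have hK' : IsLocalRing.maximalIdeal R ^ (K + 1) ≤ χ.J :=
    (Ideal.pow_le_pow_right (Nat.le_succ K)).trans hK
  let M₁ : Ideal (Ext C) := χ.J.comap Ext.fstHom
  have h1 : mExt χ C ^ (K + 1) ≤ M₁ :=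
    (Ideal.le_comap_pow _ _).trans (Ideal.comap_mono hK')
  refine ⟨(K + 1) * 2, by omega, ?_⟩
  rw [pow_mul]
  refine (Ideal.pow_right_mono h1 2).trans ?_
  have hB : ∀ x ∈ χ.J, ∀ y, C.B x y ∈ χ.J := by
    intro x hx y
    obtain ⟨p, rfl⟩ := χ.bij.2 x
    rw [← pow_one χ.J, χ.mem_J_pow] at hx
    rw [C.comb_left]
    refine Ideal.sum_mem _ fun i _ => Ideal.mul_mem_right _ _ (Ideal.mem_map_of_mem _ ?_)
    simpa using hx i
  rw [pow_two, Ideal.mul_le]
  intro a ha b hb
  have hab1 : (a * b).fst ∈ χ.J := Ideal.mul_mem_right _ _ ha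
  have hab2 : (a * b).snd ∈ χ.J :=
    add_mem (add_mem (Ideal.mul_mem_right _ _ ha) (Ideal.mul_mem_right _ _ hb)) (hB _ ha _)
  obtain ⟨p, hp⟩ := (bijective_comb_ext χ C).2 (a * b)
  rw [← hp] at hab1 hab2 ⊢
  rw [comb_ext, ← pow_one χ.J, χ.mem_J_pow] at hab1 hab2
  refine Ideal.sum_mem _ fun k _ => Ideal.mul_mem_right _ _ (Ideal.mem_map_of_mem _ ?_)
  refine Fin.addCases (fun i => ?_) (fun i => ?_) k
  · simpa using hab1 i
  · simpa using hab2 i

/-- A cocycle becomes linear along another chart after changing it by a coboundary. -/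
theorem exists_transport (hc : IsAdicComplete (IsLocalRing.maximalIdeal R) R) :
    ∃ (C' : Coc χ'.phi) (σ : R →ₗ[ℂ] R),
      ∀ x y, C'.B x y = C.B x y + x * σ y + y * σ x - σ (x * y) := by
  obtain ⟨n, hn, hle⟩ := exists_pow_mExt_le χ C
  have : IsAdicComplete (mP.map (Ext.inlA (C := C))) (Ext C) :=
    isAdicComplete_map _ _ (bijective_comb_ext χ C)
  have hJI : mP.map (Ext.inlA (C := C)) ≤ mExt χ C := by
    rw [Ideal.map_le_iff_le_comap, mP, Ideal.span_le]
    intro f hf
    rcases hf with rfl | rfl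
    · exact χ.mem_phi
    · exact χ.mem_psi
  have : IsAdicComplete (mExt χ C) (Ext C) := isAdicComplete_between hJI hn hle
  let ψE : P →ₐ[ℂ] Ext C := evalP (mExt χ C) ⟨χ'.phi varPhi, 0⟩ ⟨χ'.phi varPsi, 0⟩
    χ'.mem_phi χ'.mem_psi
  have hψ : ∀ f, (ψE f).fst = χ'.phi f := by
    have h := hom_ext (IsLocalRing.maximalIdeal R) χ'.phi (Ext.fstHom.comp ψE) χ'.mem_phi
      χ'.mem_psi (congrArg Ext.fst (evalP_varPhi (mExt χ C) ⟨χ'.phi varPhi, 0⟩ ⟨χ'.phi varPsi, 0⟩ χ'.mem_phi
        χ'.mem_psi))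
      (congrArg Ext.fst (evalP_varPsi (mExt χ C) ⟨χ'.phi varPhi, 0⟩ ⟨χ'.phi varPsi, 0⟩ χ'.mem_phi
        χ'.mem_psi))
    exact fun f => DFunLike.congr_fun h f
  let inv : R → Fin (M + 1) → P := fun x => Function.surjInv χ'.bij.2 x
  have hinv : ∀ x, comb χ'.phi χ'.e (inv x) = x := Function.surjInv_eq χ'.bij.2
  let s : R → Ext C := fun x => ∑ i, ψE (inv x i) * ⟨χ'.e i, 0⟩
  have hs1 : ∀ x, (s x).fst = x := fun x => by
    conv_rhs => rw [← hinv x]
    simp [s, comb, hψ]
  have hinv_add : ∀ x y, inv (x + y) = inv x + inv y := fun x y => χ'.bij.1 (by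
    rw [hinv]
    simp only [comb, Pi.add_apply, map_add, add_mul, sum_add_distrib]
    rw [← comb, ← comb, hinv, hinv])
  have hinv_mul : ∀ f x, inv (χ'.phi f * x) = fun i => f * inv x i := fun f x => χ'.bij.1 (by
    rw [hinv]
    simp only [comb, map_mul, mul_assoc, ← mul_sum]
    rw [← comb, hinv])
  have s_add : ∀ x y, s (x + y) = s x + s y := fun x y => by
    simp only [s, hinv_add, Pi.add_apply, map_add, add_mul, sum_add_distrib]
  have s_mul : ∀ f x, s (χ'.phi f * x) = ψE f * s x := fun f x => by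
    simp only [s, hinv_mul, map_mul, mul_assoc, ← mul_sum]
  have s_one : s 1 = 1 := by
    have : inv 1 = fun i => if 0 = i then 1 else 0 := χ'.bij.1 (by
      rw [hinv]
      simp [comb, apply_ite χ'.phi, ite_mul, χ'.e_zero])
    simp only [s, this, apply_ite ψE, map_one, map_zero, ite_mul, one_mul, zero_mul, sum_ite_eq,
      mem_univ, if_true, χ'.e_zero]
    rfl
  let σ : R →ₗ[ℂ] R :=
    { toFun := fun x => (s x).snd
      map_add' := fun x y => by simp only [s_add, Ext.add_snd]
      map_smul' := fun c x => by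
        simp only [RingHom.id_apply]
        rw [Algebra.smul_def, ← χ'.phi.commutes c, s_mul, ψE.commutes, Algebra.smul_def,
          ← χ.phi.commutes c]
        show (Ext.inlA (algebraMap ℂ P c) * s x).snd = _
        rw [Ext.inlA_mul] }
  let b' : R → R → R := fun x y => (s x * s y - s (x * y)).snd
  have key : ∀ x y, s x * s y = s (x * y) + (⟨0, b' x y⟩ : Ext C) := fun x y => by
    refine Ext.ext (by simp [hs1]) ?_
    simp [b', sub_eq_add_neg]
  have hinr : ∀ u v : R, (⟨0, u⟩ : Ext C) = ⟨0, v⟩ → u = v := fun u v h => (Ext.mk.inj h).2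
  refine ⟨{
    B := b'
    add_left := fun x y z => by
      simp only [b', add_mul, s_add]
      rw [← Ext.add_snd]
      congr 1
      ring
    symm := fun x y => by simp only [b', mul_comm]
    one_left := fun y => by simp [b', s_one]
    lin := fun f x y => ?_
    assoc := fun x y z => ?_ }, σ, fun x y => ?_⟩
  · refine hinr _ _ (add_left_cancel (a := s (χ'.phi f * x * y)) ?_)
    rw [← key, s_mul, mul_assoc, mul_assoc, key, mul_add, s_mul]
    congr 1
    rw [mul_comm (ψE f), Ext.inr_mul, hψ]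
  · refine hinr _ _ ?_
    have h1 : s x * (s y * s z) = s (x * (y * z)) + (⟨0, x * b' y z + b' x (y * z)⟩ : Ext C) := by
      rw [key y z, mul_add, key, mul_comm (s x) ⟨0, b' y z⟩, Ext.inr_mul, hs1, add_assoc]
      congr 1
      exact Ext.ext (add_zero _) (add_comm _ _)
    have h2 : (s x * s y) * s z = s (x * y * z) + (⟨0, z * b' x y + b' (x * y) z⟩ : Ext C) := by
      rw [key x y, add_mul, key, Ext.inr_mul, hs1, add_assoc]
      congr 1
      exact Ext.ext (add_zero _) (add_comm _ _)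
    rw [mul_assoc] at h2
    rw [mul_assoc x y z] at h2
    exact add_left_cancel (h1.symm.trans h2)
  · show (s x * s y - s (x * y)).snd = C.B x y + x * (s y).snd + y * (s x).snd - (s (x * y)).snd
    rw [sub_eq_add_neg, Ext.add_snd, Ext.neg_snd, Ext.mul_snd, hs1, hs1]
    ring

end Transport

end Vale.Agent.P266.Alg.Cocycle
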