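import Vale.Agent.P266.Alg.Cocycle.Ext

/-!
At a prime where the first parameter of a chart is a uniformiser, an element outside the prime
annihilates the cocycles linear along that chart.
-/

noncomputable section

open Finset
open scoped TensorProduct

namespace Vale.Agent.P266.Alg.Cocycle

section Tensor

variable {S A : Type} [CommRing S] [CommRing A] [Algebra S A]

/-- The left copy. -/
abbrev inL : A →ₐ[S] A ⊗[S] A := Algebra.TensorProduct.includeLeft

/-- The right copy. -/
abbrev inR : A →ₐ[S] A ⊗[S] A := Algebra.TensorProduct.includeRight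

/-- The difference of the two copies. -/
def dd : A →ₗ[S] A ⊗[S] A :=
  (inL (S := S) (A := A)).toLinearMap - (inR (S := S) (A := A)).toLinearMap

lemma dd_apply (x : A) : dd (S := S) x = inL x - inR x := rfl

lemma dd_mul (x y : A) : dd (S := S) (x * y) = inL x * dd (S := S) y + inR y * dd (S := S) x := by
  simp only [dd_apply, map_mul]
  ring

lemma lmul_dd (x : A) : Algebra.TensorProduct.lmul' S (dd (S := S) x) = 0 := by
  simp [dd_apply, inL, inR]

variable {p : Ideal A} [p.IsPrime]

/-- The preimage of a prime under multiplication. -/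
abbrev QQ (p : Ideal A) : Ideal (A ⊗[S] A) := p.comap (Algebra.TensorProduct.lmul' S).toRingHom

lemma mem_QQ {t : A ⊗[S] A} : t ∈ QQ (S := S) p ↔ Algebra.TensorProduct.lmul' S t ∈ p := Iff.rfl

/-- The first step: elements of the prime. -/
lemma step_prime {I : Ideal (A ⊗[S] A)} (hI : ∀ x, dd (S := S) x ∈ I) {u : S}
    (hu : algebraMap S A u ∈ p) {x s r : A} (hs : s ∉ p) (h : s * x = algebraMap S A u * r)
    (hx : x ∈ p) :
    ∃ σ ∉ QQ (S := S) p, σ * dd (S := S) x ∈ QQ (S := S) p * I := by
  refine ⟨inL s, by simpa [inL] using hs, ?_⟩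
  have h1 : dd (S := S) (s * x) ∈ QQ (S := S) p * I := by
    rw [h, ← Algebra.smul_def, map_smul, Algebra.smul_def]
    refine Ideal.mul_mem_mul ?_ (hI r)
    rw [mem_QQ, AlgHom.commutes]
    exact hu
  rw [dd_mul] at h1
  have h2 : inR x * dd (S := S) s ∈ QQ (S := S) p * I :=
    Ideal.mul_mem_mul (by simpa [inR] using hx) (hI s)
  simpa using sub_mem h1 h2

/-- The second step: integral elements, in characteristic zero. -/
lemma step_integral [Module.Finite S A] [Algebra ℂ S] {I : Ideal (A ⊗[S] A)}
    (hI : ∀ x, dd (S := S) x ∈ I)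
    (hp : ∀ x ∈ p, ∃ σ ∉ QQ (S := S) p, σ * dd (S := S) x ∈ QQ (S := S) p * I) (y : A) :
    ∃ σ ∉ QQ (S := S) p, σ * dd (S := S) y ∈ QQ (S := S) p * I := by
  classical
  let p₀ : Ideal S := p.comap (algebraMap S A)
  let f : S ⧸ p₀ →+* A ⧸ p := Ideal.quotientMap p (algebraMap S A) le_rfl
  have hfinj : Function.Injective f := Ideal.quotientMap_injective
  have : CharZero (S ⧸ p₀) :=
    charZero_of_injective_algebraMap (R := ℂ) (algebraMap ℂ (S ⧸ p₀)).injective
  let red : Polynomial S → Polynomial (S ⧸ p₀) := Polynomial.map (Ideal.Quotient.mk p₀)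
  have hev : ∀ q : Polynomial S, Ideal.Quotient.mk p (Polynomial.aeval y q) =
      (red q).eval₂ f (Ideal.Quotient.mk p y) := by
    intro q
    rw [Polynomial.eval₂_map, Polynomial.aeval_def, Polynomial.hom_eval₂]
    rfl
  have hex : ∃ d, ∃ q : Polynomial S,
      red q ≠ 0 ∧ (red q).natDegree = d ∧ Polynomial.aeval y q ∈ p := by
    obtain ⟨q, hq, hq0⟩ := IsIntegral.of_finite S y
    refine ⟨_, q, (hq.map _).ne_zero, rfl, ?_⟩
    rw [Polynomial.aeval_def, hq0]
    exact zero_mem p
  obtain ⟨q, hq0, hqd, hqp⟩ := Nat.find_spec hex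
  have hd : (red q).natDegree ≠ 0 := by
    intro h0
    have hc := Polynomial.eq_C_of_natDegree_eq_zero h0
    have h1 := hev q
    rw [Ideal.Quotient.eq_zero_iff_mem.2 hqp, hc, Polynomial.eval₂_C] at h1
    refine hq0 ?_
    rw [hc, hfinj (h1.symm.trans (map_zero f).symm), map_zero]
  have hder : Polynomial.aeval y (Polynomial.derivative q) ∉ p := by
    intro hmem
    have hr : red (Polynomial.derivative q) = Polynomial.derivative (red q) :=
      (Polynomial.derivative_map q _).symm
    have hne : Polynomial.derivative (red q) ≠ 0 := fun h =>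
      hd (Polynomial.natDegree_eq_zero_of_derivative_eq_zero h)
    have hlt : (Polynomial.derivative (red q)).natDegree < Nat.find hex :=
      (Polynomial.natDegree_derivative_lt hd).trans_eq hqd
    exact Nat.find_min hex hlt ⟨Polynomial.derivative q, by rw [hr]; exact hne, by rw [hr], hmem⟩
  obtain ⟨σ, hσ, hσq⟩ := hp _ hqp
  obtain ⟨w, hw⟩ := Polynomial.binomExpansion (q.map (algebraMap S (A ⊗[S] A))) (inR y)
    (dd (S := S) y)
  have h0 : inR y + dd (S := S) y = inL y := by rw [dd_apply]; ring
  simp only [h0, Polynomial.derivative_map, Polynomial.eval_map_algebraMap,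
    Polynomial.aeval_algHom_apply] at hw
  refine ⟨σ * inR (Polynomial.aeval y (Polynomial.derivative q)),
    Ideal.IsPrime.mul_notMem inferInstance hσ (by simpa [inR] using hder), ?_⟩
  have e : σ * inR (Polynomial.aeval y (Polynomial.derivative q)) * dd (S := S) y =
      σ * dd (S := S) (Polynomial.aeval y q) - σ * w * (dd (S := S) y * dd (S := S) y) := by
    rw [dd_apply (Polynomial.aeval y q), hw]
    ring
  rw [e]
  refine sub_mem hσq (Ideal.mul_mem_left _ _ (Ideal.mul_mem_mul ?_ (hI y)))
  rw [mem_QQ, lmul_dd]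
  exact zero_mem p

/-- The determinant trick. -/
lemma exists_annihilator {T : Type} [CommRing T] {Q : Ideal T} [Q.IsPrime] {ι : Type} [Fintype ι]
    [DecidableEq ι] (g : ι → T)
    (h : ∀ i, ∃ σ ∉ Q, σ * g i ∈ Q * Ideal.span (Set.range g)) :
    ∃ ε ∉ Q, ∀ i, ε * g i = 0 := by
  choose σ hσ hσg using h
  have h' : ∀ i, ∃ a : ι → T, (∀ j, a j ∈ Q) ∧ σ i * g i = ∑ j, a j * g j := by
    intro i
    have hi := hσg i
    rw [← smul_eq_mul Q, ← Set.image_univ, Submodule.mem_ideal_smul_span_iff_exists_sum'] at hi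
    obtain ⟨a, ha, hsum⟩ := hi
    refine ⟨fun j => a ⟨j, Set.mem_univ j⟩, fun j => ha _, ?_⟩
    rw [← hsum, Finsupp.sum_fintype]
    · exact Fintype.sum_equiv (Equiv.Set.univ ι) _ _ fun _ => rfl
    · exact fun _ => zero_smul T _
  choose a ha hsum using h'
  let M : Matrix ι ι T := Matrix.diagonal σ - Matrix.of a
  refine ⟨M.det, fun hmem => ?_, fun i => ?_⟩
  · have h1 := Ideal.Quotient.eq_zero_iff_mem.2 hmem
    rw [RingHom.map_det] at h1
    have h2 : (Ideal.Quotient.mk Q).mapMatrix M =
        Matrix.diagonal fun i => Ideal.Quotient.mk Q (σ i) := by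
      ext i j
      by_cases hij : i = j
      · subst hij
        simp [M, Ideal.Quotient.eq_zero_iff_mem.2 (ha i i)]
      · simp [M, hij, Ideal.Quotient.eq_zero_iff_mem.2 (ha i j)]
    rw [h2, Matrix.det_diagonal, Finset.prod_eq_zero_iff] at h1
    obtain ⟨i, -, hi⟩ := h1
    exact hσ i (Ideal.Quotient.eq_zero_iff_mem.1 hi)
  · have h1 : M.mulVec g = 0 := by
      funext i
      show ((Matrix.diagonal σ - Matrix.of a).mulVec g) i = 0
      rw [Matrix.sub_mulVec, Pi.sub_apply, Matrix.mulVec_diagonal, sub_eq_zero, hsum i]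
      rfl
    have h2 := congrArg M.adjugate.mulVec h1
    rw [Matrix.mulVec_mulVec, Matrix.adjugate_mul, Matrix.mulVec_zero, Matrix.smul_mulVec,
      Matrix.one_mulVec] at h2
    simpa using congrFun h2 i

end Tensor

variable {R : Type} [CommRing R] [Algebra ℂ R] [IsLocalRing R]

/-- Cocycles linear along a chart are killed outside a prime at which it is unramified. -/
theorem exists_sep {M : ℕ} (χ : Chart R M) (p : Ideal R) [p.IsPrime]
    (hp : ∀ x ∈ p, x = 0 ∨ (χ.phi varPhi ∈ p ∧ ∃ s, s ∉ p ∧ ∃ r, s * x = χ.phi varPhi * r)) :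
    ∃ θ, θ ∉ p ∧ ∀ C : Coc χ.phi, ∃ γ : R →ₗ[ℂ] R,
      ∀ x y, θ * C.B x y = x * γ y + y * γ x - γ (x * y) := by
  classical
  let : Algebra P R := χ.phi.toRingHom.toAlgebra
  have halg : ∀ f : P, algebraMap P R f = χ.phi f := fun _ => rfl
  let cl : (Fin (M + 1) → P) →ₗ[P] R :=
    { toFun := comb χ.phi χ.e
      map_add' := fun a b => by simp [comb, add_mul, sum_add_distrib]
      map_smul' := fun c a => by simp [comb, Algebra.smul_def, halg, mul_sum, mul_assoc] }
  have : Module.Finite P R := Module.Finite.of_surjective cl χ.bij.2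
  let I : Ideal (R ⊗[P] R) := Ideal.span (Set.range fun i => dd (S := P) (χ.e i))
  have hI : ∀ x, dd (S := P) x ∈ I := fun x => by
    obtain ⟨a, rfl⟩ := χ.bij.2 x
    rw [comb, map_sum]
    refine Ideal.sum_mem _ fun i _ => ?_
    rw [← halg, ← Algebra.smul_def, map_smul, Algebra.smul_def]
    exact Ideal.mul_mem_left _ _ (Ideal.subset_span ⟨i, rfl⟩)
  have hstep : ∀ x ∈ p, ∃ σ ∉ QQ (S := P) p, σ * dd (S := P) x ∈ QQ (S := P) p * I := by
    intro x hx
    rcases hp x hx with rfl | ⟨hu, s, hs, r, h⟩
    · exact ⟨1, fun h => Ideal.IsPrime.ne_top inferInstance ((Ideal.eq_top_iff_one _).2 h),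
        by simp⟩
    · exact step_prime hI (u := varPhi) (by rw [halg]; exact hu) hs (by rw [halg]; exact h) hx
  obtain ⟨ε, hε, hann⟩ := exists_annihilator (Q := QQ (S := P) p) (fun i => dd (S := P) (χ.e i))
    fun i => step_integral hI hstep (χ.e i)
  have hεy : ∀ y, ε * inL y = ε * inR (S := P) y := by
    intro y
    rw [← sub_eq_zero, ← mul_sub, ← dd_apply]
    refine Submodule.span_induction (p := fun t _ => ε * t = 0) ?_ (mul_zero ε)
      (fun a b _ _ ha hb => by rw [mul_add, ha, hb, add_zero])
      (fun c a _ ha => by rw [smul_eq_mul, mul_left_comm, ha, mul_zero]) (hI y)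
    rintro _ ⟨i, rfl⟩
    exact hann i
  refine ⟨Algebra.TensorProduct.lmul' P ε, hε, fun C => ?_⟩
  let bil : R → R →ₗ[P] R →ₗ[P] R := fun x => LinearMap.mk₂ P (fun u v => C.B x u * v)
    (fun a b c => by rw [C.add_right, add_mul])
    (fun f a b => by
      rw [C.symm x, Algebra.smul_def, halg, C.lin, C.symm a, Algebra.smul_def, halg, mul_assoc])
    (fun a b c => mul_add _ _ _)
    (fun f a b => by rw [mul_smul_comm])
  let L : R → R ⊗[P] R →ₗ[P] R := fun x => TensorProduct.lift (bil x)
  have hL : ∀ x u v, L x (u ⊗ₜ[P] v) = C.B x u * v := fun x u v => by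
    simp only [L, bil, TensorProduct.lift.tmul, LinearMap.mk₂_apply]
  have hright : ∀ x y t, L x (t * inR y) = y * L x t := by
    intro x y t
    induction t using TensorProduct.induction_on with
    | zero => simp
    | tmul u v =>
      simp only [inR, Algebra.TensorProduct.includeRight_apply,
        Algebra.TensorProduct.tmul_mul_tmul, mul_one, hL]
      ring
    | add a b ha hb => rw [add_mul, map_add, map_add, mul_add, ha, hb]
  have hcoc : ∀ x y t, x * L y t + L x (t * inL y) =
      C.B x y * Algebra.TensorProduct.lmul' P t + L (x * y) t := by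
    intro x y t
    induction t using TensorProduct.induction_on with
    | zero => simp
    | tmul u v =>
      simp only [inL, Algebra.TensorProduct.includeLeft_apply,
        Algebra.TensorProduct.tmul_mul_tmul, mul_one, hL, Algebra.TensorProduct.lmul'_apply_tmul]
      rw [mul_comm u y]
      linear_combination v * C.assoc x y u
    | add a b ha hb =>
      simp only [add_mul, map_add, mul_add]
      linear_combination ha + hb
  have hLadd : ∀ x y t, L (x + y) t = L x t + L y t := by
    intro x y t
    induction t using TensorProduct.induction_on with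
    | zero => simp
    | tmul u v => simp only [hL, C.add_left, add_mul]
    | add a b ha hb => simp only [map_add, ha, hb]; ring
  have hLsmul : ∀ (c : ℂ) x t, L (c • x) t = c • L x t := by
    intro c x t
    induction t using TensorProduct.induction_on with
    | zero => simp
    | tmul u v =>
      simp only [hL, Algebra.smul_def, ← χ.phi.commutes c, C.lin, mul_assoc]
    | add a b ha hb => simp only [map_add, ha, hb, smul_add]
  refine ⟨{ toFun := fun x => L x ε
            map_add' := fun x y => hLadd x y ε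
            map_smul' := fun c x => hLsmul c x ε }, fun x y => ?_⟩
  have h := hcoc x y ε
  rw [hεy, hright] at h
  simp only [LinearMap.coe_mk, AddHom.coe_mk]
  linear_combination -h

end Vale.Agent.P266.Alg.Cocycle
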